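import Vale.Agent.P272.HY.Blocks

/-!
# P272 / S2D: the Stage 2 / Stage 3 forms (extra term `+ μ T^{(r)}_w`) of the interface statements
-/

open scoped Manifold ContDiff ComplexOrder Topology ENNReal
open MeasureTheory Metric Set Filter

noncomputable section

namespace Vale.Agent.P272.S2D

open Vale.Agent.P272.K Vale.Agent.P272.HY

section
variable {n : ℕ} {X : Type*} [TopologicalSpace X] [ChartedSpace (Cm n) X]

/-- the functional `|f'(0)|²_w + μ T^{(r)}_w(f) - lam T_g(f)` -/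
def Phi (w g : Chart n X → Cm n → Matrix (Fin n) (Fin n) ℂ) (mu r lam : ℝ) (f : ℂ → X) : ℝ :=
  BR.spd w f 0 + mu * (TE w r f).toReal - lam * (TE g 1 f).toReal

/-- `f` maximises `Phi w g mu r lam` among the holomorphic discs centred at `f 0` with finite
`T_g` -/
structure IsMaxDiscM (w g : Chart n X → Cm n → Matrix (Fin n) (Fin n) ℂ) (mu r lam : ℝ)
    (f : ℂ → X) : Prop where
  holo : HolD n f
  fin : TE g 1 f ≠ ⊤
  max : ∀ h : ℂ → X, HolD n h → h 0 = f 0 → TE g 1 h ≠ ⊤ → Phi w g mu r lam h ≤ Phi w g mu r lam f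

/-- `i∂∂̄ log det g ≤ g - t w` (with `t = 0` this is `RicGe g`) -/
def RicGeT (g w : Chart n X → Cm n → Matrix (Fin n) (Fin n) ℂ) (t : ℝ) : Prop :=
  ∀ e x, At e x → (-cHess (fun z => Real.log (g e z).det.re) (e x) + g e (e x) -
    (t : ℂ) • w e (e x)).PosSemidef

end

section
variable (n : ℕ) (X : Type) [TopologicalSpace X] [ChartedSpace (Cm n) X]

/-- **B4M** (maximiser of the functional with the extra term) -/
def B4M : Prop := ∀ w g : Chart n X → Cm n → Matrix (Fin n) (Fin n) ℂ, IsHermitian w →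
  IsHermitian g → ∀ mu r lam M : ℝ, 0 ≤ mu → 0 < r → r < 1 → 0 < lam →
  (∀ f : ℂ → X, HolD n f → BR.spd w f 0 ≤ M) →
  ∀ x0 : X, ∃ f : ℂ → X, f 0 = x0 ∧ IsMaxDiscM w g mu r lam f

/-- **B56M** (continuity of the maximiser up to the boundary) -/
def B56M : Prop := ∀ w g : Chart n X → Cm n → Matrix (Fin n) (Fin n) ℂ, IsHermitian w →
  IsHermitian g → ∀ mu r lam M : ℝ, 0 ≤ mu → 0 < r → r < 1 → 0 < lam →
  (∀ f : ℂ → X, HolD n f → BR.spd w f 0 ≤ M) →
  ∀ f : ℂ → X, IsMaxDiscM w g mu r lam f →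
  ∃ h : ℂ → X, ContinuousOn h (closedBall 0 1) ∧ ∀ z ∈ ball (0 : ℂ) 1, h z = f z

/-- **B11M** (the extremal inequality; the extra term only helps) -/
def B11M : Prop := ∀ w g : Chart n X → Cm n → Matrix (Fin n) (Fin n) ℂ, IsKahler w →
  IsKahler g → ∀ (mu r lam δ : ℝ) (f : ℂ → X) (F : ℂ → Cm n → X), 0 ≤ mu → 0 < r → r < 1 →
  0 < lam → IsMaxDiscM w g mu r lam f → HolTube f δ F →
  ∀ p : Fin n → Polynomial ℂ, hq (pbM w F 0) (fun i => (p i).eval 0) ≤
    lam * Real.circleAverage (fun z => hq (pbM g F z) (fun i => (p i).eval z)) 0 1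

/-- **B13G** (Jensen for `i∂∂̄ log det g ≤ g - t w`; `t = 0` is `B13`) -/
def B13G : Prop := ∀ g w : Chart n X → Cm n → Matrix (Fin n) (Fin n) ℂ, IsHermitian g →
  IsHermitian w → ∀ t : ℝ, 0 ≤ t → RicGeT g w t →
  ∀ (δ : ℝ) (f : ℂ → X) (F : ℂ → Cm n → X), HolTube f δ F → TE g 1 f ≠ ⊤ → TE w 1 f ≠ ⊤ →
  Real.circleAverage (fun z => Real.log (pbM g F z).det.re) 0 1 ≤
    Real.log (pbM g F 0).det.re + (TE g 1 f).toReal - t * (TE w 1 f).toReal

/-- **DI** (the disc inequality, output of block G3). `U` is an upper bound of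
`log (det g / det w)`. -/
def DI : Prop := ∀ w : Chart n X → Cm n → Matrix (Fin n) (Fin n) ℂ, IsKahler w →
  ∀ M : ℝ, (∀ f : ℂ → X, HolD n f → BR.spd w f 0 ≤ M) →
  ∀ g : Chart n X → Cm n → Matrix (Fin n) (Fin n) ℂ, IsKahler g → ∀ t mu U : ℝ, 0 ≤ mu → mu < t →
  RicGeT g w t →
  (∀ e x, At e x → Real.log (g e (e x)).det.re ≤ U + Real.log (w e (e x)).det.re) →
  (∀ e x, At e x → Real.log (w e (e x)).det.re ≤ M + Real.log (g e (e x)).det.re) ∧
  ∀ h : ℂ → X, HolD n h → TE g 1 h ≠ ⊤ →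
    mu * (TE w 1 h).toReal ≤ (TE g 1 h).toReal + (M + mu * (M + U) / (t - mu))

end

end Vale.Agent.P272.S2D
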