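import Vale.Agent.P272.S2D.Iface
import Vale.Agent.P272.BR.Spd

/-!
# P272 / S2D: elementary properties of the characteristic `TE w r f`
-/

open scoped Manifold ContDiff ComplexOrder Topology ENNReal
open MeasureTheory Metric Set Filter

noncomputable section

namespace Vale.Agent.P272.S2D

open Vale.Agent.P272.K Vale.Agent.P272.HY

variable {n : ℕ} {X : Type*} [TopologicalSpace X] [ChartedSpace (Cm n) X]
  {w g : Chart n X → Cm n → Matrix (Fin n) (Fin n) ℂ} {f h : ℂ → X} {r mu lam : ℝ}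

/-! ### constants -/

lemma holD_const (x : X) : HolD n (fun _ : ℂ => x) := fun z _ =>
  ⟨continuousAt_const, fun _ _ => differentiableAt_const _⟩

lemma spd_const (w : Chart n X → Cm n → Matrix (Fin n) (Fin n) ℂ) (x : X) (z : ℂ) :
    BR.spd w (fun _ : ℂ => x) z = 0 := by
  have h1 : vel (fun _ : ℂ => x) (chartAt (Cm n) x : Chart n X) z = 0 := by
    unfold vel
    exact deriv_const z _
  unfold BR.spd
  rw [h1]
  simp [quad, cj]

lemma TE_const (w : Chart n X → Cm n → Matrix (Fin n) (Fin n) ℂ) (r : ℝ) (x : X) :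
    TE w r (fun _ : ℂ => x) = 0 := by
  unfold TE
  simp [spd_const]

/-! ### discs which agree on the unit disc -/

lemma HolD.congr (hf : HolD n f) (hh : ∀ z ∈ ball (0 : ℂ) 1, h z = f z) : HolD n h := by
  intro z hz
  refine (hf z hz).congr ?_
  filter_upwards [isOpen_ball.mem_nhds hz] with ζ hζ using hh ζ hζ

lemma spd_congr' (hh : ∀ z ∈ ball (0 : ℂ) 1, h z = f z) {z : ℂ} (hz : z ∈ ball (0 : ℂ) 1) :
    BR.spd w h z = BR.spd w f z :=
  BR.spd_congr (by filter_upwards [isOpen_ball.mem_nhds hz] with ζ hζ using hh ζ hζ)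

lemma TE_congr (hh : ∀ z ∈ ball (0 : ℂ) 1, h z = f z) (hr : r ≤ 1) : TE w r h = TE w r f := by
  unfold TE
  refine setLIntegral_congr_fun measurableSet_ball fun z hz => ?_
  rw [spd_congr' hh (ball_subset_ball hr hz)]

lemma IsMaxDiscM.congr (hf : IsMaxDiscM w g mu r lam f) (hr : r ≤ 1)
    (hh : ∀ z ∈ ball (0 : ℂ) 1, h z = f z) : IsMaxDiscM w g mu r lam h := by
  have h0 : h 0 = f 0 := hh 0 (mem_ball_self one_pos)
  have hP : Phi w g mu r lam h = Phi w g mu r lam f := by
    unfold Phi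
    rw [TE_congr hh hr, TE_congr hh le_rfl, spd_congr' hh (mem_ball_self one_pos)]
  refine ⟨HolD.congr hf.holo hh, ?_, fun k hk hk0 hkT => ?_⟩
  · rw [TE_congr hh le_rfl]; exact hf.fin
  · rw [hP]
    exact hf.max k hk (hk0.trans h0) hkT

/-! ### monotonicity in the radius, the limit `r → 1` -/

lemma Gr_mono {r r' : ℝ} (hr : 0 < r) (hrr : r ≤ r') (z : ℂ) : GJ.Gr r z ≤ GJ.Gr r' z := by
  unfold GJ.Gr
  have h0 : 0 ≤ 2 / Real.pi := by positivity
  refine mul_le_mul_of_nonneg_left ?_ h0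
  rcases eq_or_ne z 0 with rfl | hz
  · simp
  · exact Real.log_le_log (by positivity) (by gcongr)

lemma TE_mono [IsManifold 𝓘(ℂ, Cm n) ω X] (hw : IsHermitian w) {r r' : ℝ} (hr : 0 < r) (hrr : r ≤ r') (f : ℂ → X) :
    TE w r f ≤ TE w r' f := by
  unfold TE
  refine (lintegral_mono_set (ball_subset_ball hrr)).trans' ?_
  refine lintegral_mono fun z => ?_
  exact ENNReal.ofReal_le_ofReal
    (mul_le_mul_of_nonneg_right (Gr_mono hr hrr z) (BR.spd_nonneg hw f z))

lemma aemeasurable_spd [IsManifold 𝓘(ℂ, Cm n) ω X] (hw : IsHermitian w) (hf : HolD n f) :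
    AEMeasurable (BR.spd w f) (volume.restrict (ball (0 : ℂ) 1)) :=
  (hf.continuousOn_spd isOpen_ball hw).aemeasurable measurableSet_ball

lemma measurable_Gr (r : ℝ) : Measurable (GJ.Gr r) := by
  unfold GJ.Gr
  exact ((measurable_const.div measurable_norm).log).const_mul _

/-- if `TE w r f ≤ c` for all `r < 1` then `TE w 1 f ≤ c` -/
lemma TE_one_le [IsManifold 𝓘(ℂ, Cm n) ω X] (hw : IsHermitian w) (hf : HolD n f) {c : ℝ≥0∞}
    (hc : ∀ r : ℝ, 0 < r → r < 1 → TE w r f ≤ c) : TE w 1 f ≤ c := by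
  set r : ℕ → ℝ := fun k => 1 - 1 / (k + 2) with hr
  have hk2 : ∀ k : ℕ, (0 : ℝ) < (k : ℝ) + 2 := fun k => by positivity
  have hr0 : ∀ k, 0 < r k := fun k => by
    have h1 : 1 / ((k : ℝ) + 2) ≤ 1 / 2 := by
      apply one_div_le_one_div_of_le (by norm_num)
      have : (0 : ℝ) ≤ (k : ℝ) := by positivity
      linarith
    simp only [hr]; linarith
  have hr1 : ∀ k, r k < 1 := fun k => by
    have := one_div_pos.2 (hk2 k)
    simp only [hr]; linarith
  have hrt : Tendsto r atTop (𝓝 1) := by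
    have h1 : Tendsto (fun k : ℕ => 1 / ((k : ℝ) + 2)) atTop (𝓝 0) := by
      refine Filter.Tendsto.div_atTop tendsto_const_nhds ?_
      exact tendsto_atTop_add_const_right _ _ tendsto_natCast_atTop_atTop
    have h2 := (tendsto_const_nhds (x := (1 : ℝ)) (f := (atTop : Filter ℕ))).sub h1
    rwa [sub_zero] at h2
  set F : ℕ → ℂ → ℝ≥0∞ := fun k z => (ball (0 : ℂ) (r k)).indicator
    (fun z => ENNReal.ofReal (GJ.Gr (r k) z * BR.spd w f z)) z with hF
  have hFm : ∀ k, AEMeasurable (F k) (volume.restrict (ball (0 : ℂ) 1)) := fun k =>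
    (((measurable_Gr (r k)).aemeasurable.mul (aemeasurable_spd hw hf)).ennreal_ofReal).indicator
      measurableSet_ball
  have h1 : TE w 1 f ≤ ∫⁻ z in ball (0 : ℂ) 1, liminf (fun k => F k z) atTop := by
    unfold TE
    refine lintegral_mono_ae ?_
    have hae : ∀ᵐ z : ℂ ∂volume.restrict (ball (0 : ℂ) 1), z ≠ 0 :=
      (Measure.ae_ne volume 0).filter_mono (ae_mono Measure.restrict_le_self)
    filter_upwards [ae_restrict_mem measurableSet_ball, hae] with z hz hz0
    have hlim : Tendsto (fun k => F k z) atTop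
        (𝓝 (ENNReal.ofReal (GJ.Gr 1 z * BR.spd w f z))) := by
      have h2 : Tendsto (fun k => ENNReal.ofReal (GJ.Gr (r k) z * BR.spd w f z)) atTop
          (𝓝 (ENNReal.ofReal (GJ.Gr 1 z * BR.spd w f z))) := by
        refine ENNReal.tendsto_ofReal ?_
        refine Tendsto.mul_const _ ?_
        unfold GJ.Gr
        refine Tendsto.const_mul _ ?_
        refine (Real.continuousAt_log ?_).tendsto.comp (hrt.div_const _)
        have := norm_pos_iff.2 hz0
        positivity
      refine h2.congr' ?_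
      have h3 : ‖z‖ < 1 := by simpa using hz
      filter_upwards [hrt.eventually (lt_mem_nhds h3)] with k hk
      simp only [hF]
      rw [indicator_of_mem]
      simpa using hk
    rw [hlim.liminf_eq]
  refine h1.trans ((lintegral_liminf_le' hFm).trans ?_)
  refine liminf_le_of_le (by isBoundedDefault) fun b hb => ?_
  obtain ⟨k, hk⟩ := hb.exists
  refine hk.trans (le_trans ?_ (hc (r k) (hr0 k) (hr1 k)))
  unfold TE
  simp only [hF]
  rw [lintegral_indicator measurableSet_ball, Measure.restrict_restrict measurableSet_ball]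
  exact lintegral_mono_set inter_subset_left

/-- comparison of the characteristics of two metrics -/
lemma exists_TE_le [IsManifold 𝓘(ℂ, Cm n) ω X] [CompactSpace X] (hg : IsHermitian g)
    (hw : IsHermitian w) : ∃ C : ℝ≥0∞, C ≠ ⊤ ∧ ∀ (f : ℂ → X) (r : ℝ), 0 < r →
      TE w r f ≤ C * TE g r f := by
  obtain ⟨C, hC, hb⟩ := BR.exists_spd_le hg hw
  refine ⟨ENNReal.ofReal C, ENNReal.ofReal_ne_top, fun f r hr => ?_⟩
  unfold TE
  rw [← lintegral_const_mul' _ _ ENNReal.ofReal_ne_top]
  refine setLIntegral_mono_ae' measurableSet_ball (Eventually.of_forall fun z hz => ?_)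
  rw [← ENNReal.ofReal_mul hC.le]
  refine ENNReal.ofReal_le_ofReal ?_
  have h0 : 0 ≤ GJ.Gr r z := by
    unfold GJ.Gr
    have hz1 : ‖z‖ < r := by simpa using hz
    rcases eq_or_ne z 0 with rfl | hz0
    · simp
    · have := norm_pos_iff.2 hz0
      have h3 : 1 ≤ r / ‖z‖ := by rw [le_div_iff₀ this]; linarith
      have := Real.log_nonneg h3
      positivity
  calc GJ.Gr r z * BR.spd w f z ≤ GJ.Gr r z * (C * BR.spd g f z) :=
        mul_le_mul_of_nonneg_left (hb f z) h0
    _ = C * (GJ.Gr r z * BR.spd g f z) := by ring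

end Vale.Agent.P272.S2D
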