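import Vale.Agent.P272.S2D.Main
import Vale.Agent.P272.S2B.Final

/-!
# P272 / S2D: the disc inequality for the twisted Kähler-Einstein metrics `g_t = i∂∂̄φ + t w`
-/

open scoped Manifold ContDiff ComplexOrder Topology ENNReal
open MeasureTheory Metric Set Filter

noncomputable section

namespace Vale.Agent.P272.S2D

open Vale.Agent.P272.K Vale.Agent.P272.HY

variable {n : ℕ} {X : Type} [TopologicalSpace X] [ChartedSpace (Cm n) X]
  {w : Chart n X → Cm n → Matrix (Fin n) (Fin n) ℂ} {φ : Chart n X → Cm n → ℝ} {t : ℝ}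

/-- `Ric(g_t) = -g_t + t w` -/
lemma ricGeT_ke (h : S2B.IsKE w t φ) : RicGeT (S2B.gt w t φ) w t := by
  intro e x hx
  have h1 : -cHess (fun z => Real.log (S2B.gt w t φ e z).det.re) (e x) + S2B.gt w t φ e (e x) -
      (t : ℂ) • w e (e x) = 0 := by
    rw [h.ric hx]; abel
  rw [h1]
  exact Matrix.PosSemidef.zero

variable [IsManifold 𝓘(ℂ, Cm n) ω X] [T2Space X] [CompactSpace X]

/-- **Uniform disc inequalities for the family `g_t`**, `0 < t ≤ t1`: with the constant `U` of the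
maximum principle, `|log (det g_t / det w)| ≤ max M U` and
`mu T_w(h) ≤ T_{g_t}(h) + M + mu (M+U)/(t-mu)` for all discs `h` and all `0 ≤ mu < t`. -/
theorem ke_disc (hDI : DI n X) (hw : IsKahler w) {M : ℝ}
    (hM : ∀ f : ℂ → X, HolD n f → BR.spd w f 0 ≤ M) (t1 : ℝ) :
    ∃ U : ℝ, 0 ≤ U ∧ ∀ t : ℝ, 0 < t → t ≤ t1 → ∀ φ : Chart n X → Cm n → ℝ, S2B.IsKE w t φ →
      (∀ e x, At e x → φ e (e x) ≤ U + Real.log (w e (e x)).det.re) ∧
      (∀ e x, At e x → Real.log (w e (e x)).det.re ≤ M + φ e (e x)) ∧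
      ∀ mu : ℝ, 0 ≤ mu → mu < t → ∀ h : ℂ → X, HolD n h → TE (S2B.gt w t φ) 1 h ≠ ⊤ →
        mu * (TE w 1 h).toReal ≤ (TE (S2B.gt w t φ) 1 h).toReal + (M + mu * (M + U) / (t - mu)) := by
  obtain ⟨U, hU, hup⟩ := S2B.ke_upper hw (t1 := t1)
  refine ⟨U, hU, fun t ht ht1 φ hφ => ?_⟩
  have h1 := hup t ht ht1 φ hφ
  have hU' : ∀ e x, At e x → Real.log (S2B.gt w t φ e (e x)).det.re ≤
      U + Real.log (w e (e x)).det.re := fun e x hx => by
    rw [hφ.eqn e x hx]; exact h1 e x hx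
  refine ⟨h1, fun e x hx => ?_, fun mu hmu hmt h hh hfin => ?_⟩
  · have h2 := (hDI w hw M hM _ (hφ.isKahler hw) t 0 U le_rfl ht (ricGeT_ke hφ) hU').1 e x hx
    rwa [hφ.eqn e x hx] at h2
  · exact (hDI w hw M hM _ (hφ.isKahler hw) t mu U hmu hmt (ricGeT_ke hφ) hU').2 h hh hfin

/-- the form used at a threshold `t0 > 0`, with `b = t0 / 2` -/
theorem ke_disc_threshold (hDI : DI n X) (hw : IsKahler w) {M : ℝ}
    (hM : ∀ f : ℂ → X, HolD n f → BR.spd w f 0 ≤ M) {t0 : ℝ} (ht0 : 0 < t0) :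
    ∃ C : ℝ, 0 ≤ C ∧ ∀ t : ℝ, t0 < t → t ≤ t0 + 1 → ∀ φ : Chart n X → Cm n → ℝ,
      S2B.IsKE w t φ → ∀ h : ℂ → X, HolD n h → TE (S2B.gt w t φ) 1 h ≠ ⊤ →
        t0 / 2 * (TE w 1 h).toReal ≤ (TE (S2B.gt w t φ) 1 h).toReal + C := by
  obtain ⟨U, hU, hb⟩ := ke_disc hDI hw hM (t0 + 1)
  refine ⟨max 0 (2 * M + U), le_max_left _ _, fun t ht ht1 φ hφ h hh hfin => ?_⟩
  obtain ⟨k1, k2, k3⟩ := hb t (by linarith) ht1 φ hφ
  have k4 := k3 (t0 / 2) (by linarith) (by linarith) h hh hfin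
  have hMU : 0 ≤ M + U := by
    have e := BR.at_chartAt (n := n) (h 0)
    have a1 := k1 _ _ e
    have a2 := k2 _ _ e
    linarith
  have k5 : t0 / 2 * (M + U) / (t - t0 / 2) ≤ M + U := by
    rw [div_le_iff₀ (by linarith)]
    nlinarith
  have := le_max_right 0 (2 * M + U)
  linarith

end Vale.Agent.P272.S2D
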