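import Vale.Agent.P272.S2D.TE
import Vale.Agent.P272.K.Asm.Twisted

/-!
# P272 / S2D: the disc inequality from the interface statements
-/

open scoped Manifold ContDiff ComplexOrder Topology ENNReal
open MeasureTheory Metric Set Filter

noncomputable section

namespace Vale.Agent.P272.S2D

open Vale.Agent.P272.K Vale.Agent.P272.HY

section
variable {n : ℕ} {X : Type} [TopologicalSpace X] [ChartedSpace (Cm n) X]
  {w g : Chart n X → Cm n → Matrix (Fin n) (Fin n) ℂ} {f h : ℂ → X} {r mu lam t M U δ : ℝ}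
  {F : ℂ → Cm n → X}

/-- the logarithm of the determinant of `pbM w F 0` -/
lemma log_det_pbM (hw : IsHermitian w) (hF : HolTube f δ F) {z : ℂ}
    (hz : z ∈ closedBall (0 : ℂ) 1) :
    Real.log (pbM w F z).det.re =
      Real.log (w (chartAt (Cm n) (f z)) (chartAt (Cm n) (f z) (f z))).det.re +
      Real.log (‖(tj F (chartAt (Cm n) (f z)) z 0).det‖ ^ 2) := by
  have h0 : F z 0 = f z := hF.zero z hz
  have hc : At (chartAt (Cm n) (f z)) (f z) := BR.at_chartAt (n := n) (f z)
  have hA : (tj F (chartAt (Cm n) (f z)) z 0).det ≠ 0 := hF.inv z hz _ hc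
  unfold pbM
  rw [h0]
  set A := tj F (chartAt (Cm n) (f z)) z 0 with hAdef
  set W := w (chartAt (Cm n) (f z)) (chartAt (Cm n) (f z) (f z)) with hWdef
  have hW : 0 < W.det.re := (Complex.lt_def.1 (hw.posDef _ _ hc).det_pos).1
  have h1 : (A.transpose * W * A.map (starRingEnd ℂ)).det =
      ((‖A.det‖ ^ 2 : ℝ) : ℂ) * W.det := by
    rw [Matrix.det_mul, Matrix.det_mul, Matrix.det_transpose]
    have h2 : (A.map (starRingEnd ℂ)).det = (starRingEnd ℂ) A.det := by
      rw [RingHom.map_det]; rfl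
    rw [h2]
    have h3 : A.det * (starRingEnd ℂ) A.det = ((‖A.det‖ ^ 2 : ℝ) : ℂ) := by
      rw [Complex.mul_conj, Complex.normSq_eq_norm_sq]
    calc A.det * W.det * (starRingEnd ℂ) A.det = A.det * (starRingEnd ℂ) A.det * W.det := by ring
      _ = _ := by rw [h3]
  rw [h1, Complex.re_ofReal_mul, Real.log_mul (pow_ne_zero 2 (norm_ne_zero_iff.2 hA)) hW.ne']
  ring

variable [IsManifold 𝓘(ℂ, Cm n) ω X]

/-- the difference `log det g - log det w` does not depend on the chart -/
lemma log_det_diff (hw : IsHermitian w) (hg : IsHermitian g) {e e' : Chart n X} {x : X}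
    (hx : At e x) (hx' : At e' x) :
    Real.log (g e (e x)).det.re - Real.log (w e (e x)).det.re =
      Real.log (g e' (e' x)).det.re - Real.log (w e' (e' x)).det.re := by
  rw [log_det_change hg hx hx', log_det_change hw hx hx']
  ring

/-- **The main inequality at a maximiser**: `log det w - log det g ≤ T_g(f) - t T_w(f)` at the
centre. -/
theorem main_ineq (hS : S12) (h11 : B11M n X) (h13a : B13a n X) (h13 : B13G n X)
    (hw : IsKahler w) (hg : IsKahler g) (hmu : 0 ≤ mu) (hr : 0 < r) (hr1 : r < 1)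
    (ht : 0 ≤ t) (hric : RicGeT g w t) (hf : IsMaxDiscM w g mu r 1 f) (hfw : TE w 1 f ≠ ⊤)
    (hF : HolTube f δ F) {e : Chart n X} (he : At e (f 0)) :
    Real.log (w e (e (f 0))).det.re ≤ Real.log (g e (e (f 0))).det.re +
      (TE g 1 f).toReal - t * (TE w 1 f).toReal := by
  obtain ⟨hPc, hPd⟩ := h13a g hg.toIsHermitian δ f F hF
  obtain ⟨-, hQd⟩ := h13a w hw.toIsHermitian δ f F hF
  have h0 : (0 : ℂ) ∈ closedBall (0 : ℂ) 1 := mem_closedBall_self zero_le_one
  have k1 := hS n (pbM g F) (pbM w F 0) 1 (hPc.mono sphere_subset_closedBall)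
    (fun z hz => hPd z (sphere_subset_closedBall hz)) (hQd 0 h0) one_pos
    (h11 w g hw hg mu r 1 δ f F hmu hr hr1 one_pos hf hF)
  rw [Real.log_one, mul_zero, zero_add] at k1
  have k2 := h13 g w hg.toIsHermitian hw.toIsHermitian t ht hric δ f F hF hf.fin hfw
  rw [log_det_pbM hw.toIsHermitian hF h0] at k1
  rw [log_det_pbM hg.toIsHermitian hF h0] at k2
  have k3 := log_det_diff hw.toIsHermitian hg.toIsHermitian he
    (BR.at_chartAt (n := n) (f 0))
  linarith

/-- the maximiser can be taken continuous on the closed disc -/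
theorem exists_max (h4 : B4M n X) (h56 : B56M n X) (hw : IsHermitian w) (hg : IsHermitian g)
    (hM : ∀ f : ℂ → X, HolD n f → BR.spd w f 0 ≤ M) (hmu : 0 ≤ mu) (hr : 0 < r) (hr1 : r < 1)
    (hlam : 0 < lam) (x0 : X) : ∃ f : ℂ → X, f 0 = x0 ∧ ContinuousOn f (closedBall 0 1) ∧
      IsMaxDiscM w g mu r lam f := by
  obtain ⟨f, hf0, hf⟩ := h4 w g hw hg mu r lam M hmu hr hr1 hlam hM x0
  obtain ⟨h, hc, hh⟩ := h56 w g hw hg mu r lam M hmu hr hr1 hlam hM f hf
  exact ⟨h, by rw [hh 0 (mem_ball_self one_pos), hf0], hc, hf.congr hr1.le hh⟩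

variable [CompactSpace X]

theorem di (hS : S12) (h4 : B4M n X) (h56 : B56M n X) (h9 : B9 n X) (h11 : B11M n X)
    (h13a : B13a n X) (h13 : B13G n X) : DI n X := by
  intro w hw M hM g hg t mu U hmu hmt hric hU
  have ht : 0 < t := hmu.trans_lt hmt
  have hw' := hw.toIsHermitian
  have hg' := hg.toIsHermitian
  obtain ⟨C, hC, hcmp⟩ := exists_TE_le (n := n) (X := X) hg' hw'
  -- the key estimates for the maximiser with centre `x`
  have key : ∀ (r : ℝ), 0 < r → r < 1 → ∀ x : X, ∃ f : ℂ → X, f 0 = x ∧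
      IsMaxDiscM w g mu r 1 f ∧
      (∀ e, At e x → Real.log (w e (e x)).det.re ≤ M + Real.log (g e (e x)).det.re) ∧
      Phi w g mu r 1 f ≤ M + mu * (M + U) / (t - mu) := by
    intro r hr hr1 x
    obtain ⟨f, hf0, hfc, hf⟩ := exists_max h4 h56 hw' hg' hM hmu hr hr1 one_pos x
    obtain ⟨δ, F, hF⟩ := h9 f hfc hf.holo
    have hfw : TE w 1 f ≠ ⊤ := ((hcmp f 1 one_pos).trans_lt
      (ENNReal.mul_lt_top hC.lt_top hf.fin.lt_top)).ne
    have hrw : (TE w r f).toReal ≤ (TE w 1 f).toReal :=
      ENNReal.toReal_mono hfw (TE_mono hw' hr hr1.le f)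
    have hspd : BR.spd w f 0 ≤ M := hM f hf.holo
    -- comparison with the constant disc
    have hc := hf.max (fun _ => x) (holD_const x) hf0.symm (by rw [TE_const]; simp)
    unfold Phi at hc
    rw [spd_const, TE_const, TE_const] at hc
    simp only [ENNReal.toReal_zero, mul_zero, add_zero, sub_zero, one_mul] at hc
    have hTw : 0 ≤ (TE w 1 f).toReal := ENNReal.toReal_nonneg
    have hTg : 0 ≤ (TE g 1 f).toReal := ENNReal.toReal_nonneg
    have hmr : mu * (TE w r f).toReal ≤ mu * (TE w 1 f).toReal :=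
      mul_le_mul_of_nonneg_left hrw hmu
    have hA : (TE g 1 f).toReal ≤ M + mu * (TE w 1 f).toReal := by linarith
    have hmain : ∀ e, At e x → Real.log (w e (e x)).det.re ≤ Real.log (g e (e x)).det.re +
        (TE g 1 f).toReal - t * (TE w 1 f).toReal := by
      intro e he
      have := main_ineq hS h11 h13a h13 hw hg hmu hr hr1 ht.le hric hf hfw hF
        (e := e) (by rwa [hf0])
      rwa [hf0] at this
    have hmt' : 0 < t - mu := sub_pos.2 hmt
    refine ⟨f, hf0, hf, fun e he => ?_, ?_⟩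
    · have h1 := hmain e he
      have h2 : 0 ≤ (t - mu) * (TE w 1 f).toReal := mul_nonneg hmt'.le hTw
      nlinarith
    · have he := BR.at_chartAt (n := n) x
      have h1 := hmain _ he
      have h2 := hU _ x he
      have h3 : (t - mu) * (TE w 1 f).toReal ≤ M + U := by nlinarith
      have h4 : (TE w 1 f).toReal ≤ (M + U) / (t - mu) := by
        rw [le_div_iff₀ hmt']; linarith
      have h5 : mu * (TE w 1 f).toReal ≤ mu * ((M + U) / (t - mu)) :=
        mul_le_mul_of_nonneg_left h4 hmu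
      unfold Phi
      rw [one_mul, mul_div_assoc]
      linarith
  refine ⟨fun e x hx => ?_, fun h hh hfin => ?_⟩
  · obtain ⟨-, -, -, h1, -⟩ := key (1 / 2) (by norm_num) (by norm_num) x
    exact h1 e hx
  · set K : ℝ := M + mu * (M + U) / (t - mu) with hK
    have hbound : ∀ r : ℝ, 0 < r → r < 1 →
        mu * (TE w r h).toReal ≤ (TE g 1 h).toReal + K := by
      intro r hr hr1
      obtain ⟨f, hf0, hf, -, hP⟩ := key r hr hr1 (h 0)
      have h1 := (hf.max h hh hf0.symm hfin).trans hP
      unfold Phi at h1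
      rw [one_mul] at h1
      have h2 := BR.spd_nonneg hw' h 0
      linarith
    rcases hmu.eq_or_lt with h0 | hmu0
    · have := hbound (1 / 2) (by norm_num) (by norm_num)
      rw [← h0] at this ⊢
      simpa using this
    · have hc0 : 0 ≤ (TE g 1 h).toReal + K := by
        have h1 := hbound (1 / 2) (by norm_num) (by norm_num)
        exact (mul_nonneg hmu ENNReal.toReal_nonneg).trans h1
      have hhw : TE w 1 h ≠ ⊤ := ((hcmp h 1 one_pos).trans_lt
        (ENNReal.mul_lt_top hC.lt_top hfin.lt_top)).ne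
      have hle : TE w 1 h ≤ ENNReal.ofReal (((TE g 1 h).toReal + K) / mu) := by
        refine TE_one_le hw' hh fun r hr hr1 => ?_
        have hrf : TE w r h ≠ ⊤ := ne_top_of_le_ne_top hhw (TE_mono hw' hr hr1.le h)
        rw [← ENNReal.ofReal_toReal hrf]
        refine ENNReal.ofReal_le_ofReal ?_
        rw [le_div_iff₀ hmu0]
        linarith [hbound r hr hr1]
      have h5 := ENNReal.toReal_mono ENNReal.ofReal_ne_top hle
      rw [ENNReal.toReal_ofReal (by positivity)] at h5
      rw [le_div_iff₀ hmu0] at h5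
      linarith

end

end Vale.Agent.P272.S2D
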